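import Vale.Agent.P022.H472.Lit2

/-!
# [SUP] the formal eigenvalues are supported on ideals prime to `2 N`
-/

set_option autoImplicit false
set_option linter.unusedSectionVars false

open scoped NumberField

namespace Vale.Agent.P022.H576

open Vale.Agent.P022

variable {K : Type} [Field K] [NumberField K]

/-- supported on ideals prime to `J` -/
def Sp (J : Ideal (𝓞 K)) (x : MonoidAlgebra ℤ (Ideal (𝓞 K))) : Prop :=
  ∀ 𝔞 : Ideal (𝓞 K), x.coeff 𝔞 ≠ 0 → IsCoprime 𝔞 J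

theorem Sp.zero (J : Ideal (𝓞 K)) : Sp J 0 := fun 𝔞 h => absurd (by simp) h

theorem Sp.add {J : Ideal (𝓞 K)} {x y : MonoidAlgebra ℤ (Ideal (𝓞 K))} (hx : Sp J x)
    (hy : Sp J y) : Sp J (x + y) := by
  intro 𝔞 h
  rw [MonoidAlgebra.coeff_add, Finsupp.add_apply] at h
  by_cases h1 : x.coeff 𝔞 = 0
  · exact hy 𝔞 fun h2 => h (by rw [h1, h2, add_zero])
  · exact hx 𝔞 h1

theorem Sp.mul {J : Ideal (𝓞 K)} {x y : MonoidAlgebra ℤ (Ideal (𝓞 K))} (hx : Sp J x)
    (hy : Sp J y) : Sp J (x * y) := by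
  classical
  intro 𝔞 h
  have h1 := MonoidAlgebra.support_coeff_mul_subset x y (Finsupp.mem_support_iff.2 h)
  obtain ⟨𝔟, h2, 𝔠, h3, h4⟩ := Finset.mem_mul.1 h1
  rw [← h4]
  exact IsCoprime.mul_left (hx 𝔟 (Finsupp.mem_support_iff.1 h2))
    (hy 𝔠 (Finsupp.mem_support_iff.1 h3))

theorem Sp.single {J 𝔞 : Ideal (𝓞 K)} (h : IsCoprime 𝔞 J) (r : ℤ) :
    Sp J (MonoidAlgebra.single 𝔞 r) := by
  classical
  intro 𝔟 h1
  rw [MonoidAlgebra.coeff_single, Finsupp.single_apply] at h1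
  by_cases h2 : 𝔞 = 𝔟
  · rw [← h2]; exact h
  · rw [if_neg h2] at h1; exact absurd rfl h1

theorem Sp.sum {J : Ideal (𝓞 K)} {ι : Type*} (s : Finset ι)
    (f : ι → MonoidAlgebra ℤ (Ideal (𝓞 K))) (h : ∀ i ∈ s, Sp J (f i)) : Sp J (∑ i ∈ s, f i) := by
  classical
  induction s using Finset.induction_on with
  | empty => simpa using Sp.zero J
  | insert a s ha ih =>
    rw [Finset.sum_insert ha]
    exact (h a (Finset.mem_insert_self a s)).add
      (ih fun i hi => h i (Finset.mem_insert_of_mem hi))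

theorem Sp.finsum {J : Ideal (𝓞 K)} (S : Set (Ideal (𝓞 K)))
    (f : Ideal (𝓞 K) → MonoidAlgebra ℤ (Ideal (𝓞 K))) (h : ∀ i ∈ S, Sp J (f i)) :
    Sp J (∑ᶠ i ∈ S, f i) := by
  refine finsum_mem_induction (p := Sp J) (Sp.zero J) (fun x y hx hy => hx.add hy) ?_
  exact fun i hi => h i hi

/-- an ideal containing an integer prime to `n` is prime to `n` -/
theorem coprime_of_mem {𝔞 : Ideal (𝓞 K)} {l n : ℕ} (h : ((l : ℕ) : 𝓞 K) ∈ 𝔞)
    (hc : Nat.Coprime l n) : IsCoprime 𝔞 (Ideal.span {(n : 𝓞 K)}) := by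
  rw [Ideal.isCoprime_iff_exists]
  have h1 : (1 : ℤ) = l * Nat.gcdA l n + n * Nat.gcdB l n := by
    have h2 := Nat.gcd_eq_gcd_ab l n
    rw [hc] at h2
    exact_mod_cast h2
  refine ⟨(l : 𝓞 K) * (Nat.gcdA l n : ℤ), Ideal.mul_mem_right _ _ h,
    (n : 𝓞 K) * (Nat.gcdB l n : ℤ), Ideal.mul_mem_right _ _ (Ideal.mem_span_singleton_self _), ?_⟩
  have h3 := congrArg (fun x : ℤ => (x : 𝓞 K)) h1
  push_cast at h3
  exact h3.symm

theorem PA.cop {N : ℕ} (l : PA N) : Nat.Coprime l.1 (2 * N) :=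
  (Nat.Prime.coprime_iff_not_dvd l.2.1).2 l.2.2

theorem SUP : SUPStmt := by
  intro K _ _ N χ P
  change Sp (Ideal.span {((2 * N : ℕ) : 𝓞 K)}) (Lam K N χ P)
  induction P using FreeAlgebra.induction with
  | grade0 r =>
    rw [AlgHom.commutes, MonoidAlgebra.coe_algebraMap]
    exact Sp.single (by rw [Ideal.one_eq_top]; exact Ideal.isCoprime_iff_add.2 (by simp)) _
  | grade1 s =>
    rw [Lam, FreeAlgebra.lift_ι_apply]
    rcases s with l | l
    · rw [Sum.elim_inl, frobSum]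
      refine Sp.finsum _ _ fun 𝔭 h𝔭 => Sp.single ?_ 1
      refine coprime_of_mem (l := l.1) ?_ (PA.cop l)
      have h1 := Ideal.absNorm_mem 𝔭
      have h2 : Ideal.absNorm 𝔭 = l.1 := h𝔭
      rwa [h2] at h1
    · rw [Sum.elim_inr]
      exact Sp.single (coprime_of_mem (Ideal.mem_span_singleton_self _) (PA.cop l)) _
  | mul a b ha hb => rw [map_mul]; exact ha.mul hb
  | add a b ha hb => rw [map_add]; exact ha.add hb

end Vale.Agent.P022.H576
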