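import Vale.Agent.P022.H472.Lit2

/-!
# [NRM] a continuous `ψ` has absolute value one on the ideals prime to `2 m`
-/

set_option autoImplicit false
set_option linter.unusedSectionVars false

open scoped NumberField
open Filter Topology

namespace Vale.Agent.P022.H576

open Vale.Agent.P022

section

variable {E : Type} [NontriviallyNormedField E] [NormedAlgebra ℚ_[2] E] [IsUltrametricDist E]

theorem norm_two : ‖(2 : E)‖ = 2⁻¹ := by
  have h : ‖algebraMap ℚ_[2] E 2‖ = ‖(2 : ℚ_[2])‖ := norm_algebraMap' E _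
  rw [map_ofNat] at h
  rw [h]
  have h2 := Padic.norm_p (p := 2)
  simpa using h2

theorem norm_int_le (n : ℤ) : ‖(n : E)‖ ≤ 1 := by
  have h : ‖algebraMap ℚ_[2] E (n : ℚ_[2])‖ = ‖(n : ℚ_[2])‖ := norm_algebraMap' E _
  rw [map_intCast] at h
  rw [h]
  exact Padic.norm_int_le_one n

/-- integral elements have norm at most one -/
theorem norm_le_one {x : E} (h : IsIntegral ℤ x) : ‖x‖ ≤ 1 := by
  by_contra hx
  push Not at hx
  obtain ⟨P, hP, h0⟩ := h
  rw [Polynomial.eval₂_eq_sum_range, Finset.sum_range_succ, hP.coeff_natDegree, map_one,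
    one_mul] at h0
  have h1 : x ^ P.natDegree = -∑ i ∈ Finset.range P.natDegree,
      (algebraMap ℤ E (P.coeff i)) * x ^ i := by
    rw [eq_neg_iff_add_eq_zero, add_comm]; exact h0
  rcases Nat.eq_zero_or_pos P.natDegree with h2 | h2
  · rw [h2] at h1; simp at h1
  have h3 : ‖∑ i ∈ Finset.range P.natDegree, (algebraMap ℤ E (P.coeff i)) * x ^ i‖
      ≤ ‖x‖ ^ (P.natDegree - 1) := by
    refine IsUltrametricDist.norm_sum_le_of_forall_le_of_nonneg (by positivity) fun i hi => ?_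
    rw [norm_mul, norm_pow]
    have h4 : ‖algebraMap ℤ E (P.coeff i)‖ ≤ 1 := by
      rw [eq_intCast]; exact norm_int_le _
    calc _ ≤ 1 * ‖x‖ ^ i := by gcongr
      _ = ‖x‖ ^ i := one_mul _
      _ ≤ ‖x‖ ^ (P.natDegree - 1) :=
        pow_le_pow_right₀ hx.le (by have := Finset.mem_range.1 hi; omega)
  rw [← norm_neg, ← h1, norm_pow] at h3
  have h5 : ‖x‖ ^ (P.natDegree - 1) < ‖x‖ ^ P.natDegree :=
    pow_lt_pow_right₀ hx (by omega)
  linarith

theorem norm_ring_le {K : Type} [Field K] [NumberField K] (ι : K →+* E) (α : 𝓞 K) :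
    ‖ι α‖ ≤ 1 := by
  refine norm_le_one ?_
  have h1 : IsIntegral ℤ ((α : 𝓞 K) : K) := α.isIntegral_coe
  exact map_isIntegral_int ι h1

/-- an integer prime to `2 m` is a `2`-adic unit -/
theorem norm_eq_one {K : Type} [Field K] [NumberField K] (ι : K →+* E) {m : ℕ} {α : 𝓞 K}
    (h : IsCoprime α ((2 * m : ℕ) : 𝓞 K)) : ‖ι α‖ = 1 := by
  obtain ⟨u, v, huv⟩ := h
  refine le_antisymm (norm_ring_le ι α) ?_
  by_contra hlt
  push Not at hlt
  have h1 : ι (u : K) * ι (α : K) + ι (v : K) * ((2 : E) * (m : E)) = 1 := by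
    have h2 := congrArg (fun x : 𝓞 K => ι (x : K)) huv
    simp only [map_add, map_mul, map_natCast, map_one, Nat.cast_mul] at h2
    simpa using h2
  have h3 : ‖ι (u : K) * ι (α : K)‖ < 1 := by
    rw [norm_mul]
    calc _ ≤ 1 * ‖ι (α : K)‖ := by gcongr; exact norm_ring_le ι u
      _ < 1 := by rw [one_mul]; exact hlt
  have h4 : ‖ι (v : K) * ((2 : E) * (m : E))‖ < 1 := by
    rw [norm_mul, norm_mul, norm_two]
    have h5 : ‖(m : E)‖ ≤ 1 := by
      have := norm_int_le (E := E) (m : ℤ)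
      simpa using this
    have h6 := norm_ring_le ι v
    calc ‖ι (v : K)‖ * ((2 : ℝ)⁻¹ * ‖(m : E)‖) ≤ 1 * ((2 : ℝ)⁻¹ * 1) := by gcongr
      _ < 1 := by norm_num
  have h7 := IsUltrametricDist.norm_add_le_max (ι (u : K) * ι (α : K))
    (ι (v : K) * ((2 : E) * (m : E)))
  rw [h1, norm_one] at h7
  exact absurd (h7.trans_lt (max_lt h3 h4)) (lt_irrefl _)

/-- powers of a unit come back to one -/
theorem exists_pow_near [ProperSpace E] {x : E} (hx : ‖x‖ = 1) {δ : ℝ} (hδ : 0 < δ) :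
    ∃ k : ℕ, 0 < k ∧ ‖x ^ k - 1‖ < δ := by
  have hc : IsCompact (Metric.closedBall (0 : E) 1) := isCompact_closedBall 0 1
  obtain ⟨a, -, φ, hφ, hlim⟩ := hc.tendsto_subseq (x := fun n : ℕ => x ^ n) fun n => by
    rw [mem_closedBall_zero_iff, norm_pow, hx, one_pow]
  have h1 : ∀ᶠ n in atTop, dist (x ^ φ n) a < δ / 2 :=
    (Metric.tendsto_nhds.1 hlim) (δ / 2) (by positivity)
  obtain ⟨n, hn⟩ := h1.exists_forall_of_atTop
  have h2 : dist (x ^ φ (n + 1)) (x ^ φ n) < δ :=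
    calc _ ≤ dist (x ^ φ (n + 1)) a + dist (x ^ φ n) a := dist_triangle_right _ _ _
      _ < δ / 2 + δ / 2 := add_lt_add (hn _ (Nat.le_succ n)) (hn _ le_rfl)
      _ = δ := by ring
  have h3 : φ n < φ (n + 1) := hφ (Nat.lt_succ_self n)
  refine ⟨φ (n + 1) - φ n, Nat.sub_pos_of_lt h3, ?_⟩
  have h4 : x ^ φ (n + 1) - x ^ φ n = x ^ φ n * (x ^ (φ (n + 1) - φ n) - 1) := by
    rw [mul_sub, ← pow_add, Nat.add_sub_cancel' h3.le, mul_one]
  rw [dist_eq_norm, h4, norm_mul, norm_pow, hx, one_pow, one_mul] at h2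
  exact h2

end

/-- an element prime to `m` has a power congruent to one mod `m` -/
theorem exists_pow_modEq {K : Type} [Field K] [NumberField K] {m : ℕ} (hm : m ≠ 0) {α : 𝓞 K}
    (h : IsCoprime α (m : 𝓞 K)) : ∃ k : ℕ, 0 < k ∧ (m : 𝓞 K) ∣ α ^ k - 1 := by
  classical
  obtain ⟨I, hI⟩ : ∃ I : Ideal (𝓞 K), I = Ideal.span {(m : 𝓞 K)} := ⟨_, rfl⟩
  have hI0 : I ≠ ⊥ := by
    rw [hI, Ne, Ideal.span_singleton_eq_bot]; exact_mod_cast hm
  have : Finite (𝓞 K ⧸ I) := Ideal.finiteQuotientOfFreeOfNeBot I hI0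
  obtain ⟨u, v, huv⟩ := h
  have h1 : (Ideal.Quotient.mk I u) * (Ideal.Quotient.mk I α) = 1 := by
    rw [← map_mul, ← map_one (Ideal.Quotient.mk I), Ideal.Quotient.eq, hI,
      Ideal.mem_span_singleton]
    exact ⟨-v, by linear_combination huv⟩
  have h2 : IsUnit (Ideal.Quotient.mk I α) := IsUnit.of_mul_eq_one_right _ h1
  obtain ⟨U, hU⟩ := h2
  have h3 : 0 < orderOf U := (isOfFinOrder_of_finite U).orderOf_pos
  refine ⟨orderOf U, h3, ?_⟩
  have h4 : (Ideal.Quotient.mk I α) ^ orderOf U = 1 := by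
    rw [← hU, ← Units.val_pow_eq_pow_val, pow_orderOf_eq_one, Units.val_one]
  rw [← map_pow, ← map_one (Ideal.Quotient.mk I), Ideal.Quotient.eq] at h4
  exact Ideal.mem_span_singleton.1 (hI ▸ h4)

theorem NRM : NRMStmt := by
  intro K _ _ E _ _ _ _ ι m hm ψ hψ 𝔞 h𝔞
  have : ProperSpace E := FiniteDimensional.proper ℚ_[2] E
  have hm0 : m ≠ 0 := by rintro rfl; exact absurd hm (by decide)
  -- the ideal is not zero
  have ha0 : 𝔞 ≠ ⊥ := by
    rintro rfl
    rw [Ideal.isCoprime_iff_sup_eq, bot_sup_eq, Ideal.span_singleton_eq_top] at h𝔞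
    have h1 : IsCoprime (0 : 𝓞 K) ((2 * m : ℕ) : 𝓞 K) := isCoprime_zero_left.2 h𝔞
    have h2 := norm_eq_one ι h1
    simp at h2
  -- a power is principal
  obtain ⟨h, hh, α, hα⟩ : ∃ h : ℕ, 0 < h ∧ ∃ α : 𝓞 K, 𝔞 ^ h = Ideal.span {α} := by
    classical
    have h1 : (ClassGroup.mk0 ⟨𝔞, mem_nonZeroDivisors_of_ne_zero ha0⟩) ^
        Fintype.card (ClassGroup (𝓞 K)) = 1 := pow_card_eq_one
    rw [← map_pow, ClassGroup.mk0_eq_one_iff] at h1
    refine ⟨Fintype.card (ClassGroup (𝓞 K)), Fintype.card_pos, ?_⟩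
    obtain ⟨α, hα⟩ := h1
    exact ⟨α, by simpa using hα⟩
  have hc : IsCoprime α ((2 * m : ℕ) : 𝓞 K) := by
    rw [← Ideal.isCoprime_span_singleton_iff, ← hα]
    exact IsCoprime.pow_left h𝔞
  have hcm : IsCoprime α (m : 𝓞 K) := by
    rw [Nat.cast_mul] at hc
    exact hc.of_mul_right_right
  obtain ⟨j, hj, hj2⟩ := exists_pow_modEq hm0 hcm
  obtain ⟨δ, hδ, hψ2⟩ := hψ 1 one_pos
  have h1 : ‖ι ((α ^ j : 𝓞 K) : K)‖ = 1 := norm_eq_one ι hc.pow_left
  obtain ⟨k, hk, hk2⟩ := exists_pow_near h1 hδ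
  have h2 : ‖ψ (Ideal.span {(α ^ j) ^ k}) - 1‖ < 1 := by
    refine hψ2 _ ?_ ?_
    · exact hj2.trans (sub_one_dvd_pow_sub_one _ _)
    · simpa using hk2
  have h3 : ‖ψ (Ideal.span {(α ^ j) ^ k})‖ = 1 := by
    have h4 : ψ (Ideal.span {(α ^ j) ^ k}) = (ψ (Ideal.span {(α ^ j) ^ k}) - 1) + 1 := by ring
    rw [h4, IsUltrametricDist.norm_add_eq_max_of_norm_ne_norm (by rw [norm_one]; exact h2.ne),
      norm_one, max_eq_right h2.le]
  have h5 : ψ (Ideal.span {(α ^ j) ^ k}) = (ψ 𝔞) ^ (h * (j * k)) := by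
    rw [← pow_mul, ← Ideal.span_singleton_pow, ← hα, ← pow_mul, map_pow]
  rw [h5, norm_pow] at h3
  exact (pow_eq_one_iff_of_nonneg (norm_nonneg _) (by positivity)).1 h3

end Vale.Agent.P022.H576
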