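import Vale.Agent.P022.H933.Ext2

/-!
# [NRM2] a continuous `ψ` (2-adic topology of `𝓞 K`, any number field `K`) has absolute value
one on the ideals prime to `2 m`
-/

set_option autoImplicit false

open scoped NumberField

namespace Vale.Agent.P022.H576.X2

open Vale.Agent.P022

/-- `2 m` is no unit of `𝓞 K` (proof of H545/Core.lean) -/
theorem not_unit (K : Type) [Field K] [NumberField K] (m : ℕ) :
    ¬ IsUnit (((2 * m : ℕ) : 𝓞 K)) := by
  intro h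
  have h2 : IsUnit (2 : 𝓞 K) := by
    rw [Nat.cast_mul] at h
    exact isUnit_of_mul_isUnit_left h
  obtain ⟨β, hβ⟩ := h2.exists_right_inv
  have h3 : (β : K) = algebraMap ℚ K (1 / 2) := by
    have h4 := congrArg (algebraMap (𝓞 K) K) hβ
    rw [map_mul, map_one, map_ofNat] at h4
    rw [map_div₀, map_one, map_ofNat]
    field_simp
    linear_combination h4
  have h5 : IsIntegral ℤ (1 / 2 : ℚ) := by
    rw [← isIntegral_algebraMap_iff (B := K) (algebraMap ℚ K).injective, ← h3]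
    exact β.isIntegral_coe
  obtain ⟨n, hn⟩ := IsIntegrallyClosed.isIntegral_iff.1 h5
  have h6 : (n : ℚ) = 1 / 2 := hn
  have h7 : (2 * n : ℚ) = 1 := by rw [h6]; norm_num
  have h8 : 2 * n = 1 := by exact_mod_cast h7
  omega

theorem ne_bot {K : Type} [Field K] [NumberField K] {m : ℕ} {𝔞 : Ideal (𝓞 K)}
    (h : IsCoprime 𝔞 (Ideal.span {((2 * m : ℕ) : 𝓞 K)})) : 𝔞 ≠ ⊥ := by
  rintro rfl
  rw [Ideal.isCoprime_iff_sup_eq, bot_sup_eq, Ideal.span_singleton_eq_top] at h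
  exact not_unit K m h

/-- an element prime to `m` has a power congruent to one mod `m` -/
theorem exists_pow {K : Type} [Field K] [NumberField K] {m : ℕ} (hm : m ≠ 0) {α : 𝓞 K}
    (h : IsCoprime α (m : 𝓞 K)) : ∃ k : ℕ, 0 < k ∧ (m : 𝓞 K) ∣ α ^ k - 1 := by
  classical
  obtain ⟨I, hI⟩ : ∃ I : Ideal (𝓞 K), I = Ideal.span {(m : 𝓞 K)} := ⟨_, rfl⟩
  have hI0 : I ≠ ⊥ := by
    rw [hI, Ne, Ideal.span_singleton_eq_bot]; exact_mod_cast hm
  have : Finite (𝓞 K ⧸ I) := Ideal.finiteQuotientOfFreeOfNeBot I hI0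
  obtain ⟨u, v, huv⟩ := h
  have h1 : (Ideal.Quotient.mk I u) * (Ideal.Quotient.mk I α) = 1 := by
    rw [← map_mul, ← map_one (Ideal.Quotient.mk I), Ideal.Quotient.eq, hI,
      Ideal.mem_span_singleton]
    exact ⟨-v, by linear_combination huv⟩
  have h2 : IsUnit (Ideal.Quotient.mk I α) := IsUnit.of_mul_eq_one_right _ h1
  obtain ⟨U, hU⟩ := h2
  have h3 : 0 < orderOf U := (isOfFinOrder_of_finite U).orderOf_pos
  refine ⟨orderOf U, h3, ?_⟩
  have h4 : (Ideal.Quotient.mk I α) ^ orderOf U = 1 := by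
    rw [← hU, ← Units.val_pow_eq_pow_val, pow_orderOf_eq_one, Units.val_one]
  rw [← map_pow, ← map_one (Ideal.Quotient.mk I), Ideal.Quotient.eq] at h4
  exact Ideal.mem_span_singleton.1 (hI ▸ h4)

/-- **[NRM2]** -/
theorem NRM2 : X.NRM2Stmt := by
  intro K _ _ E _ _ _ _ m hm ψ hψ 𝔞 h𝔞
  have hm0 : m ≠ 0 := by rintro rfl; exact absurd hm (by decide)
  have ha0 : 𝔞 ≠ ⊥ := ne_bot h𝔞
  obtain ⟨r, hr⟩ := hψ 1 one_pos
  obtain ⟨h, hh, α, hα⟩ : ∃ h : ℕ, 0 < h ∧ ∃ α : 𝓞 K, 𝔞 ^ h = Ideal.span {α} := by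
    classical
    have h1 : (ClassGroup.mk0 ⟨𝔞, mem_nonZeroDivisors_of_ne_zero ha0⟩) ^
        Fintype.card (ClassGroup (𝓞 K)) = 1 := pow_card_eq_one
    rw [← map_pow, ClassGroup.mk0_eq_one_iff] at h1
    refine ⟨Fintype.card (ClassGroup (𝓞 K)), Fintype.card_pos, ?_⟩
    obtain ⟨α, hα⟩ := h1
    exact ⟨α, by simpa using hα⟩
  have hc : IsCoprime α ((2 * m : ℕ) : 𝓞 K) := by
    rw [← Ideal.isCoprime_span_singleton_iff, ← hα]
    exact IsCoprime.pow_left h𝔞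
  have hc2 : IsCoprime α ((2 ^ r * m : ℕ) : 𝓞 K) := by
    refine (hc.pow_right (n := r + 1)).of_isCoprime_of_dvd_right ?_
    exact ⟨2 * (m : 𝓞 K) ^ r, by push_cast; ring⟩
  obtain ⟨k, hk, hk2⟩ := exists_pow (by positivity) hc2
  have h2 : ‖ψ (Ideal.span {α ^ k}) - 1‖ < 1 := hr _ hk2
  have h3 : ‖ψ (Ideal.span {α ^ k})‖ = 1 := by
    have h4 : ψ (Ideal.span {α ^ k}) = (ψ (Ideal.span {α ^ k}) - 1) + 1 := by ring
    rw [h4, IsUltrametricDist.norm_add_eq_max_of_norm_ne_norm (by rw [norm_one]; exact h2.ne),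
      norm_one, max_eq_right h2.le]
  have h5 : ψ (Ideal.span {α ^ k}) = (ψ 𝔞) ^ (h * k) := by
    rw [← Ideal.span_singleton_pow, ← hα, ← pow_mul, map_pow]
  rw [h5, norm_pow] at h3
  exact (pow_eq_one_iff_of_nonneg (norm_nonneg _) (by positivity)).1 h3

end Vale.Agent.P022.H576.X2

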